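import Vale.Agent.P366.H375.CH.Out
import Vale.Agent.P366.CL.DefsS

/-! Data foliated by the parallel surfaces of a convex body in terms of the null cone. -/

open MeasureTheory Metric Filter Topology Set
open scoped ContDiff ENNReal

noncomputable section
namespace Vale.Agent.P366.CH

open Vale.Agent.P366 (pd E flux fderiv_eq_sum_pd)
open Vale.Agent.P366.H353.N
open Vale.Agent.P366.Kerr (NullCone Psi)
open Vale.Agent.P366.KSN (Y dts sg Ms OO mem_OO)
open Vale.Agent.P366.Convex (IsSupport ray)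
open Vale.Agent.P366.CL (IsLeaves IsLeafExt)

variable {n : ℕ} {h lam W : E n → ℝ} {x y z : E n} {s : ℝ} {D : Stmt.Exterior n}

lemma psi_ray [Fact (3 ≤ n)] (hh : IsSupport h) (hz : z ≠ 0) :
    Psi (supH h) z = ray h (‖z‖⁻¹ • z) (‖z‖ - 1) := by
  have hn : 0 < ‖z‖ := norm_pos_iff.2 hz
  have hu : ‖‖z‖⁻¹ • z‖ = 1 := by
    rw [norm_smul, norm_inv, norm_norm, inv_mul_cancel₀ hn.ne']
  ext i
  rw [psi_sup hh hz]
  show _ = Stmt.pd i h (‖z‖⁻¹ • z) + (‖z‖ - 1) * (‖z‖⁻¹ • z) i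
  rw [sup_pd hh (ne_zero_of_one hu)]

/-- the region outside one body -/
lemma bodies_one [Fact (3 ≤ n)] (hh : IsSupport h) {F : E n → ℝ} (hF : Continuous F)
    (hS : ∀ y, F y < 0 ↔ ∀ x : E n, ‖x‖ = 1 → ∑ i, x i * y i < h x) :
    Bodies F fun _ : Unit => supC hh :=
  bodies_of (h := fun _ => h) (fun _ => hh) hF
    (fun j k hjk => absurd (Subsingleton.elim j k) hjk)
    (fun y => by rw [hS y]; exact ⟨fun h1 => ⟨(), h1⟩, fun ⟨_, h1⟩ => h1⟩)

lemma dom_one [Fact (3 ≤ n)] (hh : IsSupport h) {F : E n → ℝ}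
    (hS : ∀ y, F y < 0 ↔ ∀ x : E n, ‖x‖ = 1 → ∑ i, x i * y i < h x) (y : E n) :
    0 ≤ F y ↔ ∃ x, x ≠ 0 ∧ (supC hh).U x ≤ ‖x‖ ∧ Psi (supC hh).H x = y := by
  have h1 : 0 ≤ F y ↔ ∃ x : E n, ‖x‖ = 1 ∧ h x ≤ ∑ i, x i * y i := by
    rw [← not_lt, hS]
    push Not
    rfl
  rw [h1, ray_out_le hh y]
  constructor
  · rintro ⟨x, s, hx, hs0, rfl⟩
    have hp : 0 < 1 + s := by linarith
    have hx0 : (1 + s) • x ≠ 0 := smul_ne_zero hp.ne' (ne_zero_of_one hx)
    have hn : ‖(1 + s) • x‖ = 1 + s := by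
      rw [norm_smul, hx, mul_one, Real.norm_eq_abs, abs_of_pos hp]
    refine ⟨(1 + s) • x, hx0, ?_, ?_⟩
    · show (1 : ℝ) ≤ _
      rw [hn]
      linarith
    · show Psi (supH h) _ = _
      rw [psi_ray hh hx0, hn, smul_smul, inv_mul_cancel₀ hp.ne', one_smul]
      congr 1
      ring
  · rintro ⟨z, hz, hU, rfl⟩
    have hn : 0 < ‖z‖ := norm_pos_iff.2 hz
    have hU' : (1 : ℝ) ≤ ‖z‖ := hU
    refine ⟨‖z‖⁻¹ • z, ‖z‖ - 1, ?_, by linarith, (psi_ray hh hz).symm⟩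
    rw [norm_smul, norm_inv, norm_norm, inv_mul_cancel₀ hn.ne']

/-- The plain form of data foliated by parallel surfaces. -/
theorem leafExt_of [Fact (3 ≤ n)] (hh : IsSupport h) (hL : IsLeaves h lam W D) :
    IsLeafExt (supC hh) (fun z => lam z + 1) W D where
  cst := ⟨1, fun _ _ => rfl⟩
  dom := dom_one hh hL.dom
  bdF := fun z hz hU => by
    have hB := bodies_one hh D.dom.1.continuous hL.dom
    have hU' : ‖z‖ = 1 := hU
    have h1 := hB.bdr () z hU'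
    rw [bp_sup hh hU'] at h1
    show D.F (Psi (supH h) z) = 0
    rw [psi_ray hh hz, hU']
    simpa using h1
  smL := fun y hy => (hL.smL y hy).add contDiffAt_const
  eqL := fun z hz hU => by
    have hn : 0 < ‖z‖ := norm_pos_iff.2 hz
    have hU' : (1 : ℝ) ≤ ‖z‖ := hU
    show lam (Psi (supH h) z) + 1 = ‖z‖
    rw [psi_ray hh hz, hL.eqL _ _ ?_ (by linarith)]
    · ring
    · show ‖‖z‖⁻¹ • z‖ = 1
      rw [norm_smul, norm_inv, norm_norm, inv_mul_cancel₀ hn.ne']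
  smW := hL.smW
  met := fun y hy i j => by
    have e : ∀ i, Stmt.pd i (fun z => lam z + 1) y = Stmt.pd i lam y := fun i => by
      unfold Stmt.pd lineDeriv
      simp
    rw [hL.met y hy, e, e]

end Vale.Agent.P366.CH
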