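import Vale.Agent.P366.H745.CH.Stmt
import Vale.Agent.P366.H222.N.Int
import Vale.Agent.P366.H208.N.ToDat
import Vale.Agent.P366.H208.N.X3b
import Vale.Agent.P366.H353.N.A5

/-! From support functions of strictly convex bodies to null cones. -/

open MeasureTheory Metric Filter Topology Set
open scoped ContDiff ENNReal

noncomputable section
namespace Vale.Agent.P366.CH

open Vale.Agent.P366 (pd E flux fderiv_eq_sum_pd)
open Vale.Agent.P366.H353.N
open Vale.Agent.P366.Kerr (NullCone Psi)
open Vale.Agent.P366.KSN (Y dts sg Ms stmt_pd stmt_pd2)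
open Vale.Agent.P366.Convex (IsSupport ray)

variable {n : ℕ} {h : E n → ℝ} {x y z : E n} {s : ℝ}

lemma sup_sm (hs : IsSupport h) : Sm h := hs.smooth

lemma sup_hom (hs : IsSupport h) : Hom 1 h := fun x hx r hr => by
  rw [zpow_one]
  exact hs.hom x hx r hr

lemma sup_pd (hs : IsSupport h) (hx : x ≠ 0) (i : Fin n) : Stmt.pd i h x = pd i h x :=
  stmt_pd ((sup_sm hs).diff hx) i

/-- Euler's relation -/
lemma sup_euler (hs : IsSupport h) (hx : x ≠ 0) : ∑ i, x i * pd i h x = h x := by
  have := (sup_hom hs).euler (sup_sm hs) hx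
  rw [this]
  norm_num

/-- the Hessian kills the direction of the point -/
lemma sup_hs_x (hh : IsSupport h) (hx : x ≠ 0) (i : Fin n) : ∑ l, x l * hs h i l x = 0 := by
  have h1 := (((sup_hom hh).pd (sup_sm hh) i)).euler ((sup_sm hh).pd i) hx
  have h2 : ∑ l, x l * hs h i l x = ∑ l, x l * pd l (pd i h) x :=
    Finset.sum_congr rfl fun l _ => by rw [hs_symm (sup_sm hh) hx i l]; rfl
  rw [h2, h1]
  norm_num

/-- positivity of the Hessian at unit vectors -/
lemma sup_pos (hh : IsSupport h) (hx : ‖x‖ = 1) {v : Fin n → ℝ} (hv : ∑ i, x i * v i = 0)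
    (h0 : v ≠ 0) : 0 < ∑ i, ∑ j, hs h i j x * v i * v j := by
  have h1 := hh.pos x hx v hv h0
  simpa only [stmt_pd2 ((sup_sm hh) x (ne_zero_of_one hx))] using h1

/-- positivity of the Hessian at a unit vector, for vectors which are not multiples of it -/
lemma sup_pos_unit (hh : IsSupport h) (hx : ‖x‖ = 1) {v : Fin n → ℝ}
    (h0 : ∀ c : ℝ, (fun i => v i) ≠ fun i => c * x i) :
    0 < ∑ i, ∑ j, hs h i j x * v i * v j := by
  have hx0 := ne_zero_of_one hx
  have hxx : ∑ i, x i * x i = 1 := sum_mul_self hx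
  set c := ∑ i, x i * v i with hc
  set w : Fin n → ℝ := fun i => v i - c * x i with hw
  have hw1 : ∑ i, x i * w i = 0 := by
    simp only [hw, mul_sub, Finset.sum_sub_distrib]
    have : ∀ i, x i * (c * x i) = c * (x i * x i) := fun i => by ring
    simp only [this, ← Finset.mul_sum, hxx]
    rw [hc]; ring
  have hw2 : w ≠ 0 := by
    intro e
    apply h0 c
    funext i
    have := congrFun e i
    simp only [hw, Pi.zero_apply] at this
    linarith
  have h1 := sup_pos hh hx hw1 hw2
  have e1 : ∀ i, ∑ j, hs h i j x * w i * w j = ∑ j, hs h i j x * w i * v j := by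
    intro i
    have : ∀ j, hs h i j x * w i * w j = hs h i j x * w i * v j - (w i * c) * (x j * hs h i j x) :=
      fun j => by rw [hw]; ring
    simp only [this, Finset.sum_sub_distrib, ← Finset.mul_sum, sup_hs_x hh hx0 i, mul_zero,
      sub_zero]
  have e2 : ∑ i, ∑ j, hs h i j x * w i * v j = ∑ i, ∑ j, hs h i j x * v i * v j := by
    rw [Finset.sum_comm]
    rw [Finset.sum_comm (f := fun i j => hs h i j x * v i * v j)]
    refine Finset.sum_congr rfl fun j _ => ?_
    have : ∀ i, hs h i j x * w i * v j = hs h i j x * v i * v j - (v j * c) * (x i * hs h j i x) :=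
      fun i => by rw [hw, hs_symm (sup_sm hh) hx0 j i]; ring
    simp only [this, Finset.sum_sub_distrib, ← Finset.mul_sum, sup_hs_x hh hx0 j, mul_zero,
      sub_zero]
  simp only [e1] at h1
  rwa [e2] at h1

/-- positivity of the Hessian at any point -/
lemma sup_pos_any (hh : IsSupport h) (hz : z ≠ 0) {v : Fin n → ℝ}
    (h0 : ∀ c : ℝ, (fun i => v i) ≠ fun i => c * z i) :
    0 < ∑ i, ∑ j, hs h i j z * v i * v j := by
  have hn : 0 < ‖z‖ := norm_pos_iff.2 hz
  set x : E n := ‖z‖⁻¹ • z with hx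
  have hx1 : ‖x‖ = 1 := by
    rw [hx, norm_smul, norm_inv, norm_norm, inv_mul_cancel₀ hn.ne']
  have h1 := sup_pos_unit hh hx1 (v := v) (fun c e => h0 (c * ‖z‖⁻¹) (by
    funext i
    have := congrFun e i
    rw [this, hx]
    simp only [PiLp.smul_apply, smul_eq_mul]
    ring))
  have e : ∀ i j, hs h i j x = ‖z‖ * hs h i j z := by
    intro i j
    have := ((sup_hom hh).hs (sup_sm hh) i j) z hz (‖z‖⁻¹) (inv_pos.2 hn)
    rw [hx, this]
    norm_num
  simp only [e] at h1
  have e3 : ∑ i, ∑ j, ‖z‖ * hs h i j z * v i * v j =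
      ‖z‖ * ∑ i, ∑ j, hs h i j z * v i * v j := by
    simp only [Finset.mul_sum]
    refine Finset.sum_congr rfl fun i _ => Finset.sum_congr rfl fun j _ => by ring
  rw [e3] at h1
  exact (mul_pos_iff_of_pos_left hn).1 h1

lemma chain_line {f : E n → ℝ} (hf : Sm f) {v : E n} {t : ℝ} (h0 : x + t • v ≠ 0) :
    HasDerivAt (fun t : ℝ => f (x + t • v)) (∑ i, v i * pd i f (x + t • v)) t := by
  have h1 : HasFDerivAt f (fderiv ℝ f (x + t • v)) (x + t • v) := (hf.diff h0).hasFDerivAt
  have h2 : HasDerivAt (fun t : ℝ => x + t • v) v t := by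
    simpa using ((hasDerivAt_id t).smul_const v).const_add x
  have h3 := h1.comp_hasDerivAt t h2
  rwa [fderiv_eq_sum_pd] at h3

/-- the strict inequality of the supporting hyperplane -/
lemma sup_lt (hh : IsSupport h) (hli : ∀ a b : ℝ, a • x + b • y = 0 → a = 0 ∧ b = 0) :
    ∑ i, y i * pd i h x < h y := by
  have hs' := sup_sm hh
  set v : E n := y - x with hv
  have hg : ∀ t : ℝ, x + t • v ≠ 0 := by
    intro t e
    have e' : (1 - t) • x + t • y = 0 := by
      rw [← e, hv]
      module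
    obtain ⟨h1, h2⟩ := hli _ _ e'
    rw [h2] at h1
    norm_num at h1
  have hx : x ≠ 0 := by
    have := hg 0
    simpa using this
  set φ' : ℝ → ℝ := fun t => ∑ i, v i * pd i h (x + t • v) with hφ
  set ψ : ℝ → ℝ := fun t => ∑ i, v i * ∑ j, v j * pd j (pd i h) (x + t • v) with hψ
  have h1 : ∀ t, HasDerivAt (fun t : ℝ => h (x + t • v)) (φ' t) t := fun t => chain_line hs' (hg t)
  have h2 : ∀ t, HasDerivAt φ' (ψ t) t := by
    intro t
    have : ∀ i ∈ Finset.univ, HasDerivAt (fun t : ℝ => v i * pd i h (x + t • v))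
        (v i * ∑ j, v j * pd j (pd i h) (x + t • v)) t := fun i _ =>
      (chain_line (hs'.pd i) (hg t)).const_mul (v i)
    exact HasDerivAt.fun_sum this
  obtain ⟨c, hc, e1⟩ := exists_hasDerivAt_eq_slope (fun t : ℝ => h (x + t • v)) φ'
    (zero_lt_one' ℝ) (fun t _ => (h1 t).continuousAt.continuousWithinAt) (fun t _ => h1 t)
  obtain ⟨d, hd, e2⟩ := exists_hasDerivAt_eq_slope φ' ψ hc.1
    (fun t _ => (h2 t).continuousAt.continuousWithinAt) (fun t _ => h2 t)
  have hpos : 0 < ψ d := by
    have h3 : ∀ r : ℝ, (fun i => v i) ≠ fun i => r * (x + d • v) i := by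
      intro r e
      have e' : (-1 - r * (1 - d)) • x + (1 - r * d) • y = 0 := by
        ext i
        have := congrFun e i
        simp only [hv, PiLp.sub_apply, PiLp.add_apply, PiLp.smul_apply, smul_eq_mul,
          PiLp.zero_apply] at this ⊢
        linarith
      obtain ⟨h4, h5⟩ := hli _ _ e'
      have h6 : r = 0 := by linarith
      rw [h6] at h5
      norm_num at h5
    have h4 := sup_pos_any hh (hg d) h3
    have e : ψ d = ∑ i, ∑ j, hs h i j (x + d • v) * v i * v j := by
      rw [hψ]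
      simp only [Finset.mul_sum]
      refine Finset.sum_congr rfl fun i _ => Finset.sum_congr rfl fun j _ => ?_
      rw [hs_symm hs' (hg d) i j]
      show v i * (v j * hs h j i (x + d • v)) = _
      ring
    rwa [e]
  have h5 : φ' 0 < φ' c := by
    have h6 : φ' c - φ' 0 = ψ d * c := by
      rw [e2, sub_zero, div_mul_cancel₀ _ hc.1.ne']
    have := mul_pos hpos hc.1
    linarith
  have h6 : φ' c = h y - h x := by
    rw [e1]
    simp [hv]
  have h7 : φ' 0 = ∑ i, y i * pd i h x - h x := by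
    rw [← sup_euler hh hx, hφ]
    simp only [zero_smul, add_zero, hv, PiLp.sub_apply, sub_mul, Finset.sum_sub_distrib]
  linarith

lemma exists_other [hn : Fact (3 ≤ n)] (hx : x ≠ 0) : ∃ e : E n,
    ∀ a b : ℝ, a • e + b • x = 0 → a = 0 ∧ b = 0 := by
  have hn' := hn.out
  obtain ⟨i, hi⟩ : ∃ i, x i ≠ 0 := by
    by_contra hc
    push Not at hc
    exact hx (by ext i; simpa using hc i)
  obtain ⟨j, hj⟩ : ∃ j : Fin n, j ≠ i := by
    have : Nontrivial (Fin n) := Fin.nontrivial_iff_two_le.2 (by omega)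
    exact exists_ne i
  refine ⟨EuclideanSpace.single j 1, fun a b e => ?_⟩
  have e1 := congrArg (fun z : E n => z i) e
  have e2 := congrArg (fun z : E n => z j) e
  simp only [PiLp.add_apply, PiLp.smul_apply, smul_eq_mul, PiLp.zero_apply,
    PiLp.single_apply, hj.symm, if_true, if_false, mul_zero, zero_add, mul_one] at e1 e2
  have hb : b = 0 := by
    rcases mul_eq_zero.1 e1 with h1 | h1
    · exact h1
    · exact absurd h1 hi
  rw [hb] at e2
  exact ⟨by simpa using e2, hb⟩

/-- the width of the body is positive -/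
lemma sup_width [Fact (3 ≤ n)] (hh : IsSupport h) (hx : x ≠ 0) : 0 < h x + h (-x) := by
  obtain ⟨e, he⟩ := exists_other hx
  have h1 := sup_lt hh (x := e) (y := x) he
  have h2 := sup_lt hh (x := e) (y := -x) (fun a b e' => by
    have := he a (-b) (by rw [← e']; module)
    exact ⟨this.1, by linarith [this.2]⟩)
  have h3 : ∑ i, (-x) i * pd i h e = -∑ i, x i * pd i h e := by
    rw [← Finset.sum_neg_distrib]
    exact Finset.sum_congr rfl fun i _ => by rw [PiLp.neg_apply]; ring
  rw [h3] at h2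
  linarith

lemma indep_unit (hx : ‖x‖ = 1) (hy : ‖y‖ = 1) (h1 : y ≠ x) (h2 : y ≠ -x) (a b : ℝ)
    (e : a • x + b • y = 0) : a = 0 ∧ b = 0 := by
  by_cases hb : b = 0
  · rw [hb, zero_smul, add_zero] at e
    exact ⟨(smul_eq_zero.1 e).resolve_right (ne_zero_of_one hx), hb⟩
  · exfalso
    have e1 : y = (-(a / b)) • x := by
      have : b • y = (-a) • x := by
        have h3 : b • y = -(a • x) := by
          rw [eq_neg_iff_add_eq_zero, add_comm]
          exact e
        rw [h3, neg_smul]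
      have h4 : y = b⁻¹ • (b • y) := by rw [smul_smul, inv_mul_cancel₀ hb, one_smul]
      rw [h4, this, smul_smul]
      congr 1
      field_simp
    have e2 : |a / b| = 1 := by
      have := congrArg norm e1
      rw [norm_smul, hx, hy, mul_one, Real.norm_eq_abs, abs_neg] at this
      exact this.symm
    rcases eq_or_eq_neg_of_abs_eq e2 with e3 | e3
    · rw [e3] at e1
      exact h2 (by rw [e1]; simp)
    · rw [e3] at e1
      exact h1 (by rw [e1]; simp)

/-- the strict inequality of the supporting hyperplane, for different unit vectors -/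
lemma sup_lt_unit [Fact (3 ≤ n)] (hh : IsSupport h) (hx : ‖x‖ = 1) (hy : ‖y‖ = 1) (hne : y ≠ x) :
    ∑ i, y i * pd i h x < h y := by
  by_cases h2 : y = -x
  · subst h2
    have h3 : ∑ i, (-x) i * pd i h x = -h x := by
      rw [← sup_euler hh (ne_zero_of_one hx), ← Finset.sum_neg_distrib]
      exact Finset.sum_congr rfl fun i _ => by rw [PiLp.neg_apply]; ring
    rw [h3]
    linarith [sup_width hh (ne_zero_of_one hx)]
  · exact sup_lt hh (indep_unit hx hy hne h2)

lemma sum_le_one (hx : ‖x‖ = 1) (hy : ‖y‖ = 1) : ∑ i, x i * y i ≤ 1 := by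
  have h1 : ∑ i, x i * x i = 1 := sum_mul_self hx
  have h2 : ∑ i, y i * y i = 1 := sum_mul_self hy
  have h3 : 0 ≤ ∑ i, (x i - y i) * (x i - y i) :=
    Finset.sum_nonneg fun i _ => mul_self_nonneg _
  have h4 : ∑ i, (x i - y i) * (x i - y i) =
      ∑ i, x i * x i + ∑ i, y i * y i - 2 * ∑ i, x i * y i := by
    rw [Finset.mul_sum, ← Finset.sum_add_distrib, ← Finset.sum_sub_distrib]
    exact Finset.sum_congr rfl fun i _ => by ring
  rw [h4, h1, h2] at h3
  linarith

/-- the normal rays outside the body do not meet -/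
lemma sup_inj [Fact (3 ≤ n)] (hh : IsSupport h) (hx : ‖x‖ = 1) (hy : ‖y‖ = 1) {s t : ℝ}
    (hs0 : 0 ≤ s) (ht0 : 0 ≤ t) (e : ∀ i, pd i h x + s * x i = pd i h y + t * y i) :
    x = y ∧ s = t := by
  have hx0 := ne_zero_of_one hx
  have hy0 := ne_zero_of_one hy
  have hxx : ∑ i, x i * x i = 1 := sum_mul_self hx
  have hyy : ∑ i, y i * y i = 1 := sum_mul_self hy
  have ex : h x + s = ∑ i, x i * pd i h y + t * ∑ i, x i * y i := by
    have h1 : ∑ i, x i * (pd i h x + s * x i) = ∑ i, x i * (pd i h y + t * y i) :=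
      Finset.sum_congr rfl fun i _ => by rw [e i]
    have h2 : ∑ i, x i * (pd i h x + s * x i) = ∑ i, x i * pd i h x + s * ∑ i, x i * x i := by
      rw [Finset.mul_sum, ← Finset.sum_add_distrib]
      exact Finset.sum_congr rfl fun i _ => by ring
    have h3 : ∑ i, x i * (pd i h y + t * y i) = ∑ i, x i * pd i h y + t * ∑ i, x i * y i := by
      rw [Finset.mul_sum, ← Finset.sum_add_distrib]
      exact Finset.sum_congr rfl fun i _ => by ring
    rw [h2, h3, sup_euler hh hx0, hxx, mul_one] at h1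
    exact h1
  have ey : h y + t = ∑ i, y i * pd i h x + s * ∑ i, x i * y i := by
    have h1 : ∑ i, y i * (pd i h y + t * y i) = ∑ i, y i * (pd i h x + s * x i) :=
      Finset.sum_congr rfl fun i _ => by rw [e i]
    have h2 : ∑ i, y i * (pd i h y + t * y i) = ∑ i, y i * pd i h y + t * ∑ i, y i * y i := by
      rw [Finset.mul_sum, ← Finset.sum_add_distrib]
      exact Finset.sum_congr rfl fun i _ => by ring
    have h3 : ∑ i, y i * (pd i h x + s * x i) = ∑ i, y i * pd i h x + s * ∑ i, x i * y i := by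
      rw [Finset.mul_sum, ← Finset.sum_add_distrib]
      exact Finset.sum_congr rfl fun i _ => by ring
    rw [h2, h3, sup_euler hh hy0, hyy, mul_one] at h1
    exact h1
  have hle := sum_le_one hx hy
  have hxy : x = y := by
    by_contra hne
    have h1 := sup_lt_unit hh hy hx hne
    have h2 := sup_lt_unit hh hx hy (Ne.symm hne)
    have h3 : t * ∑ i, x i * y i ≤ t := by nlinarith
    have h4 : s * ∑ i, x i * y i ≤ s := by nlinarith
    linarith
  refine ⟨hxy, ?_⟩
  subst hxy
  rw [hxx, mul_one] at ex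
  have := sup_euler hh hx0
  linarith

/-- the function `H` of the null cone -/
def supH (h : E n → ℝ) (x : E n) : ℝ := h x - ‖x‖

lemma supH_sm (hh : IsSupport h) : Sm (supH h) := (sup_sm hh).sub Sm.norm

lemma supH_pd (hh : IsSupport h) (hx : x ≠ 0) (i : Fin n) :
    pd i (supH h) x = pd i h x - x i / ‖x‖ := by
  unfold supH
  rw [pd_sub' (sup_sm hh) Sm.norm hx, pd_norm' hx]

lemma supH_hs (hh : IsSupport h) (hx : ‖x‖ = 1) (i j : Fin n) :
    hs (supH h) i j x = hs h i j x - pr x i j := by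
  have hx0 := ne_zero_of_one hx
  show pd i (pd j (supH h)) x = _
  rw [pd_congr' (f := fun z => pd j h z - X3.nv j z) (fun z hz => supH_pd hh hz j) hx0,
    pd_sub' ((sup_sm hh).pd j) (X3.sm_nv j) hx0, X3.pd_nv hx]
  rfl

lemma psi_sup (hh : IsSupport h) (hz : z ≠ 0) (i : Fin n) :
    (Psi (supH h) z) i = pd i h (‖z‖⁻¹ • z) + (‖z‖ - 1) * (‖z‖⁻¹ • z) i := by
  have hn : 0 < ‖z‖ := norm_pos_iff.2 hz
  have e1 : pd i h (‖z‖⁻¹ • z) = pd i h z := by
    have := ((sup_hom hh).pd (sup_sm hh) i) z hz (‖z‖⁻¹) (inv_pos.2 hn)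
    rw [this]
    norm_num
  show Stmt.pd i (supH h) z + z i = _
  rw [stmt_pd ((supH_sm hh).diff hz), supH_pd hh hz, e1, PiLp.smul_apply, smul_eq_mul]
  field_simp
  ring

/-- The null cone over the parallel surface at the distance one inside. -/
def supC [Fact (3 ≤ n)] (hh : IsSupport h) : NullCone n where
  H := supH h
  U := fun _ => 1
  smooth := fun x hx => ⟨supH_sm hh x hx, contDiffAt_const⟩
  hom := fun x hx r hr => by
    refine ⟨?_, rfl⟩
    unfold supH
    rw [hh.hom x hx r hr, norm_smul, Real.norm_eq_abs, abs_of_pos hr]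
    ring
  pos := fun _ _ => one_pos
  reg := fun x hx v hv h0 => by
    have h1 := sup_pos hh hx hv h0
    have h2 : ∀ i j, Stmt.pd i (Stmt.pd j (supH h)) x = hs h i j x - pr x i j := fun i j => by
      rw [stmt_pd2 (supH_sm hh x (ne_zero_of_one hx)), supH_hs hh hx]
    simp only [h2]
    have h3 : ∑ i, ∑ j, (hs h i j x - pr x i j) * v i * v j =
        (∑ i, ∑ j, hs h i j x * v i * v j) - ∑ i, ∑ j, pr x i j * v i * v j := by
      rw [← Finset.sum_sub_distrib]
      refine Finset.sum_congr rfl fun i _ => ?_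
      rw [← Finset.sum_sub_distrib]
      exact Finset.sum_congr rfl fun j _ => by ring
    have h4 : ∑ i, ∑ j, pr x i j * v i * v j = ∑ i, v i ^ 2 := by
      have e : ∀ i, ∑ j, pr x i j * v i * v j = v i ^ 2 := by
        intro i
        have e1 : ∀ j, pr x i j * v i * v j = kd i j * (v i * v j) - (x i * v i) * (x j * v j) :=
          fun j => by unfold pr; ring
        simp only [e1, Finset.sum_sub_distrib, ← Finset.mul_sum, hv, mul_zero, sub_zero]
        rw [sum_kd (fun j => v i * v j) i]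
        ring
      simp only [e]
    rw [h3, h4]
    linarith
  inj := by
    rintro z ⟨hz, hz1⟩ z' ⟨hz', hz1'⟩ e
    have hn : 0 < ‖z‖ := norm_pos_iff.2 hz
    have hn' : 0 < ‖z'‖ := norm_pos_iff.2 hz'
    have hu : ‖‖z‖⁻¹ • z‖ = 1 := by
      rw [norm_smul, norm_inv, norm_norm, inv_mul_cancel₀ hn.ne']
    have hu' : ‖‖z'‖⁻¹ • z'‖ = 1 := by
      rw [norm_smul, norm_inv, norm_norm, inv_mul_cancel₀ hn'.ne']
    obtain ⟨h1, h2⟩ := sup_inj hh hu hu' (s := ‖z‖ - 1) (t := ‖z'‖ - 1) (by linarith)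
      (by linarith) (fun i => by rw [← psi_sup hh hz, ← psi_sup hh hz', e])
    have h3 : ‖z‖ = ‖z'‖ := by linarith
    have h4 : z = ‖z‖ • (‖z‖⁻¹ • z) := by rw [smul_smul, mul_inv_cancel₀ hn.ne', one_smul]
    have h5 : z' = ‖z'‖ • (‖z'‖⁻¹ • z') := by rw [smul_smul, mul_inv_cancel₀ hn'.ne', one_smul]
    rw [h4, h5, h1, h3]

/-- A strictly convex body gives a null cone. -/
theorem exists_cone [Fact (3 ≤ n)] (hh : IsSupport h) : ∃ C : NullCone n,
    (∀ x, x ≠ 0 → C.U x = 1) ∧ (∀ x s, ‖x‖ = 1 → Y C.H x (1 + s) = ray h x s) ∧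
    ∀ x, ‖x‖ = 1 →
      dts C.H 1 x = (Matrix.of fun i j => Stmt.pd i (Stmt.pd j h) x + x i * x j).det := by
  refine ⟨supC hh, fun _ _ => rfl, fun x s hx => ?_, fun x hx => ?_⟩
  · have hx0 := ne_zero_of_one hx
    ext i
    show pd i (supH h) x + (1 + s) * x i = Stmt.pd i h x + s * x i
    rw [supH_pd hh hx0, sup_pd hh hx0, hx]
    ring
  · have hx0 := ne_zero_of_one hx
    show (Ms (supH h) 1 x).det = _
    congr 1
    ext i j
    show hs (supH h) i j x + 1 * pr x i j + x i * x j = Stmt.pd i (Stmt.pd j h) x + x i * x j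
    rw [supH_hs hh hx, stmt_pd2 (sup_sm hh x hx0)]
    ring

end Vale.Agent.P366.CH
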