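import Vale.Agent.P366.H375.CH.Geo
import Vale.Agent.P366.H474.W.C

/-! The divergence theorem outside several disjoint bodies. -/

open MeasureTheory Metric Filter Topology Set
open scoped ContDiff ENNReal

noncomputable section
namespace Vale.Agent.P366.H375.CH

open Vale.Agent.P366 (pd E flux)
open Vale.Agent.P366.H353.N
open Vale.Agent.P366.Kerr (NullCone)
open Vale.Agent.P366.H707.N (le_av av_le av_tendsto cut_gen cutO)
open Vale.Agent.P366.KSN (Y bflux OO mem_OO cut rr stokes_id isOpen_OO SI_bflux_cont)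

variable {n : ℕ} {ι : Type*} [Fintype ι] {C : ι → NullCone n}

/-- The cutoff at infinity. -/
def chi (R : ℝ) (y : E n) : ℝ := 1 - T1.T (‖y‖ - R)

/-- The cutoff outside all bodies. -/
def psi (C : ι → NullCone n) (δ R : ℝ) (y : E n) : ℝ :=
  chi R y - ∑ k, (chi R y - cut (C k) δ R y)

lemma chi_nonneg (R : ℝ) (y : E n) : 0 ≤ chi R y := by
  have := Real.smoothTransition.le_one (‖y‖ - R)
  change 0 ≤ 1 - Real.smoothTransition (‖y‖ - R)
  linarith

lemma chi_le (R : ℝ) (y : E n) : chi R y ≤ 1 := by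
  have := Real.smoothTransition.nonneg (‖y‖ - R)
  change 1 - Real.smoothTransition (‖y‖ - R) ≤ 1
  linarith

lemma chi_one {R : ℝ} {y : E n} (h : ‖y‖ ≤ R) : chi R y = 1 := by
  unfold chi
  rw [show T1.T (‖y‖ - R) = 0 from Real.smoothTransition.zero_of_nonpos (by linarith), sub_zero]

theorem chi_id [Fact (3 ≤ n)] {R : ℝ} (hR : 0 < R) {Z : Fin n → E n → ℝ}
    (hZ : ∀ i, ContDiff ℝ 1 (Z i)) :
    Integrable (fun y => chi R y * ∑ i, pd i (Z i) y) ∧
      ∫ y, chi R y * ∑ i, pd i (Z i) y = H707.N.av (flux Z) R := by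
  obtain ⟨h1, -, h3⟩ := cut_gen (O := (univ : Set (E n))) (N := ∅) isOpen_univ isOpen_empty
    (fun y => Or.inl (mem_univ y)) (v := fun _ => 1) (fun y _ => contDiffAt_const) (R2 := R + 1)
    hR (fun y hy => absurd hy (notMem_empty y)) (fun y hy => absurd hy (notMem_empty y))
    (fun y hy => ⟨mem_univ y, le_rfl, hy.le⟩) (F := Z) (fun i y _ => (hZ i).contDiffAt)
  have e : ∀ y : E n, cutO (univ : Set (E n)) (fun _ => 1) R y = chi R y := by
    intro y
    unfold cutO chi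
    rw [if_pos (mem_univ y), show T1.T (1:ℝ) = 1 from Real.smoothTransition.one_of_one_le le_rfl]
  simp only [e] at h1 h3
  refine ⟨h1, ?_⟩
  rw [h3]
  have e2 : ∀ y : E n, (univ : Set (E n)).indicator (fun y => deriv T1.T ((fun _ => (1:ℝ)) y) *
      ∑ i, pd i (fun _ => (1:ℝ)) y * Z i y) y = 0 := by
    intro y
    rw [indicator_univ]
    have : deriv T1.T 1 = 0 := T1.T_deriv_one le_rfl
    simp only [this, zero_mul]
  simp only [e2, integral_zero, sub_zero]
  rfl

/-- The divergence theorem with the cutoff outside all bodies. -/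
theorem psi_id [Fact (3 ≤ n)] {R0 : ℝ}
    (hcov : ∀ k, ∀ y : E n, R0 < ‖y‖ → ∃ x s, ‖x‖ = 1 ∧ (C k).U x ≤ s ∧ Y (C k).H x s = y) :
    ∃ R1 : ℝ, ∀ Z : Fin n → E n → ℝ, (∀ i, ContDiff ℝ 1 (Z i)) →
    ∀ δ, 0 < δ → δ ≤ 1 → ∀ R, R1 ≤ R →
      Integrable (fun y => psi C δ R y * ∑ i, pd i (Z i) y) ∧
      (∀ k y, 0 ≤ cut (C k) δ R y) ∧
      ∫ y, psi C δ R y * ∑ i, pd i (Z i) y = H707.N.av (flux Z) R -
        ∑ k, H707.N.av (fun r => SI (bflux (C k) Z (δ * r))) 1 := by
  have hst := fun k => stokes_id (C k) (hcov k)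
  choose R1 hst using hst
  have hne : ∃ B, ∀ k, R1 k ≤ B := by
    obtain ⟨B, hB⟩ := (Set.finite_range R1).bddAbove
    exact ⟨B, fun k => hB ⟨k, rfl⟩⟩
  obtain ⟨B, hB⟩ := hne
  refine ⟨max B 1, fun Z hZ δ hδ hδ1 R hR => ?_⟩
  have hR1 : 0 < R := by linarith [(le_max_right B 1).trans hR]
  have h := fun k => hst k Z (fun i y _ => (hZ i).contDiffAt) δ hδ hδ1 R
    ((hB k).trans ((le_max_left _ _).trans hR))
  obtain ⟨g1, g2⟩ := chi_id hR1 hZ
  have e : ∀ y, psi C δ R y * ∑ i, pd i (Z i) y = chi R y * ∑ i, pd i (Z i) y -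
      ∑ k, (chi R y * ∑ i, pd i (Z i) y - cut (C k) δ R y * ∑ i, pd i (Z i) y) := by
    intro y
    unfold psi
    rw [sub_mul, Finset.sum_mul]
    simp only [sub_mul]
  simp only [e]
  have hi : ∀ k, Integrable fun y => chi R y * ∑ i, pd i (Z i) y -
      cut (C k) δ R y * ∑ i, pd i (Z i) y := fun k => g1.sub (h k).1
  refine ⟨g1.sub (integrable_finsetSum _ fun k _ => hi k), fun k => (h k).2.1, ?_⟩
  rw [integral_sub g1 (integrable_finsetSum _ fun k _ => hi k), integral_finsetSum _ fun k _ => hi k,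
    g2]
  congr 1
  refine Finset.sum_congr rfl fun k _ => ?_
  rw [integral_sub g1 (h k).1, g2, (h k).2.2]
  ring

/-- A common width of the collars. -/
lemma exists_width (hsep : ∀ j k, j ≠ k → ∀ y, y ∈ OO (C j) ∨ y ∈ OO (C k)) {R0 : ℝ}
    (hcov : ∀ k, ∀ y : E n, R0 < ‖y‖ → ∃ x s, ‖x‖ = 1 ∧ (C k).U x ≤ s ∧ Y (C k).H x s = y) :
    ∃ η, 0 < η ∧ ∀ j k, j ≠ k → ∀ y, y ∈ GG (C j) η ∨ y ∈ GG (C k) η := by
  classical
  have h : ∀ p : ι × ι, ∃ η, 0 < η ∧ (p.1 ≠ p.2 → ∀ y, y ∈ GG (C p.1) η ∨ y ∈ GG (C p.2) η) := by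
    intro p
    by_cases hp : p.1 = p.2
    · exact ⟨1, one_pos, fun h => absurd hp h⟩
    · obtain ⟨η, h1, h2⟩ := sep_GG (C p.1) (C p.2) (hcov p.1) (hsep _ _ hp)
      exact ⟨η, h1, fun _ => h2⟩
  choose f hf0 hf using h
  have hfin : ∃ η, 0 < η ∧ ∀ p : ι × ι, η ≤ f p := by
    have : ∀ s : Finset (ι × ι), ∃ η, 0 < η ∧ ∀ p ∈ s, η ≤ f p := by
      intro s
      induction s using Finset.induction_on with
      | empty => exact ⟨1, one_pos, by simp⟩
      | insert a s ha ih =>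
        obtain ⟨η, h1, h2⟩ := ih
        refine ⟨min η (f a), lt_min h1 (hf0 a), fun p hp => ?_⟩
        rcases Finset.mem_insert.mp hp with rfl | hp
        · exact min_le_right _ _
        · exact (min_le_left _ _).trans (h2 p hp)
    obtain ⟨η, h1, h2⟩ := this Finset.univ
    exact ⟨η, h1, fun p => h2 p (Finset.mem_univ p)⟩
  obtain ⟨η, h1, h2⟩ := hfin
  refine ⟨η, h1, fun j k hjk y => ?_⟩
  rcases hf (j, k) hjk y with h3 | h3
  · exact Or.inl (GG_mono (h2 (j, k)) h3)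
  · exact Or.inr (GG_mono (h2 (j, k)) h3)

/-- The cutoff outside all bodies is nonnegative, at most one, and vanishes on the bodies. -/
lemma psi_prop {η : ℝ} (hη : ∀ j k, j ≠ k → ∀ y, y ∈ GG (C j) η ∨ y ∈ GG (C k) η) {δ R : ℝ}
    (hδ : 0 < δ) (hδη : 2 * δ ≤ η) (hcut : ∀ k y, 0 ≤ cut (C k) δ R y) (y : E n) :
    0 ≤ psi C δ R y ∧ psi C δ R y ≤ chi R y ∧ ((∃ k, y ∉ OO (C k)) → psi C δ R y = 0) ∧
      ((∀ k, y ∈ GG (C k) (2 * δ)) → psi C δ R y = chi R y) := by
  classical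
  have h0 : ∀ k, y ∈ GG (C k) (2 * δ) → chi R y - cut (C k) δ R y = 0 := by
    intro k hk
    rw [cut_one hδ hk.1 hk.2.le]
    exact sub_self _
  by_cases hall : ∀ k, y ∈ GG (C k) (2 * δ)
  · have e : psi C δ R y = chi R y := by
      unfold psi
      rw [Finset.sum_eq_zero fun k _ => h0 k (hall k), sub_zero]
    refine ⟨e ▸ chi_nonneg R y, e.le, ?_, fun _ => e⟩
    rintro ⟨k, hk⟩
    exact absurd (hall k).1 hk
  · push Not at hall
    obtain ⟨k1, hk1⟩ := hall
    have hoth : ∀ k, k ≠ k1 → y ∈ GG (C k) (2 * δ) := by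
      intro k hk
      rcases hη k k1 hk y with h | h
      · exact GG_mono hδη h
      · exact absurd (GG_mono hδη h) hk1
    have e : psi C δ R y = cut (C k1) δ R y := by
      unfold psi
      rw [Finset.sum_eq_single k1 (fun k _ hk => h0 k (hoth k hk))
        (fun h => absurd (Finset.mem_univ k1) h)]
      ring
    have hle : cut (C k1) δ R y ≤ chi R y := by
      by_cases hO : y ∈ OO (C k1)
      · unfold cut cutO chi
        rw [if_pos hO]
        have := Real.smoothTransition.le_one (rr (C k1) y / δ - 1)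
        change Real.smoothTransition (rr (C k1) y / δ - 1) - T1.T (‖y‖ - R) ≤ 1 - T1.T (‖y‖ - R)
        linarith
      · rw [cut_zero hO]
        exact chi_nonneg R y
    refine ⟨e ▸ hcut k1 y, e ▸ hle, ?_, fun h => absurd (h k1) hk1⟩
    rintro ⟨k, hk⟩
    by_cases hkk : k = k1
    · rw [e, ← hkk, cut_zero hk]
    · exact absurd (hoth k hkk).1 hk

lemma sum_cont {R0 : ℝ} {Z : Fin n → E n → ℝ} (hZ : ∀ i, ContDiff ℝ 1 (Z i)) :
    ContinuousOn (fun c => ∑ k, SI (bflux (C k) Z c)) (Icc 0 2) := by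
  have _ := R0
  exact continuousOn_finsetSum _ fun k _ =>
    SI_bflux_cont (C k) (fun i x s _ _ => (hZ i).continuous.continuousAt) (b := 2)

lemma av_split {Z : Fin n → E n → ℝ} (hZ : ∀ i, ContDiff ℝ 1 (Z i)) {δ : ℝ} (hδ : 0 < δ)
    (hδ1 : δ ≤ 1) : H707.N.av (fun r => ∑ k, SI (bflux (C k) Z (δ * r))) 1 =
      ∑ k, H707.N.av (fun r => SI (bflux (C k) Z (δ * r))) 1 := by
  refine av_sum Finset.univ fun k _ => ?_
  have h5 : ContinuousOn (fun r : ℝ => SI (bflux (C k) Z (δ * r))) (Icc 1 (1 + 1)) := by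
    refine (SI_bflux_cont (C k) (fun i x s _ _ => (hZ i).continuous.continuousAt) (b := 2)).comp
      (continuous_const.mul continuous_id).continuousOn fun r hr => ?_
    have h6 : 0 ≤ r := by linarith [hr.1]
    refine ⟨by positivity, ?_⟩
    have h7 : r ≤ 2 := by linarith [hr.2]
    show δ * r ≤ 2
    nlinarith
  exact h5.integrableOn_Icc

/-- The divergence theorem outside several bodies: the inequality. -/
theorem stokes_bodies_le [Fact (3 ≤ n)]
    (hsep : ∀ j k, j ≠ k → ∀ y, y ∈ OO (C j) ∨ y ∈ OO (C k)) {R0 : ℝ}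
    (hcov : ∀ k (y : E n), R0 < ‖y‖ → ∃ x s, ‖x‖ = 1 ∧ (C k).U x ≤ s ∧ Y (C k).H x s = y)
    {Z : Fin n → E n → ℝ} (hZ : ∀ i, ContDiff ℝ 1 (Z i))
    (hd : ∀ y, (∀ k, y ∈ OO (C k)) → 0 ≤ ∑ i, pd i (Z i) y) {e : ℝ}
    (he : Tendsto (flux Z) atTop (𝓝 e)) : ∑ k, SI (bflux (C k) Z 0) ≤ e := by
  obtain ⟨R1, hst⟩ := psi_id hcov
  obtain ⟨η, hη, hw⟩ := exists_width hsep hcov
  have hav : Tendsto (H707.N.av (flux Z)) atTop (𝓝 e) := by
    refine av_tendsto (s0 := max R0 0 + 1) (fun c hc => ?_) he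
    exact Vale.Agent.P366.H707.N.flux_integrable (le_max_right R0 0)
      (fun i y hy => (hZ i).contDiffAt) hc
  refine lim_le (sum_cont (R0 := R0) hZ) (δ0 := η / 2) (by positivity) fun δ hδ hδη hδ1 => ?_
  rw [av_split hZ hδ hδ1]
  refine ge_of_tendsto hav ?_
  filter_upwards [eventually_ge_atTop R1] with R hR
  obtain ⟨_, h2, h3⟩ := hst Z hZ δ hδ hδ1 R hR
  have h4 : 0 ≤ ∫ y, psi C δ R y * ∑ i, pd i (Z i) y := by
    refine integral_nonneg fun y => ?_
    obtain ⟨p1, _, p3, _⟩ := psi_prop hw hδ (by linarith) h2 y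
    by_cases hO : ∀ k, y ∈ OO (C k)
    · exact mul_nonneg p1 (hd y hO)
    · push Not at hO
      show 0 ≤ psi C δ R y * ∑ i, pd i (Z i) y
      rw [p3 hO, zero_mul]
  linarith

/-- The averages near the surfaces converge. -/
lemma av_lim {g : ℝ → ℝ} (hg : ContinuousOn g (Icc 0 2)) :
    Tendsto (fun m : ℕ => H707.N.av (fun r => g (1 / ((m : ℝ) + 1) * r)) 1) atTop (𝓝 (g 0)) := by
  rw [Metric.tendsto_atTop]
  intro ε hε
  have hc0 := hg 0 ⟨le_rfl, by norm_num⟩
  have h3 := Metric.continuousWithinAt_iff.mp hc0 (ε / 2) (by positivity)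
  obtain ⟨ρ, hρ, h4⟩ := h3
  obtain ⟨N, hN⟩ := exists_nat_one_div_lt (show 0 < ρ / 2 by positivity)
  refine ⟨N, fun m hm => ?_⟩
  set δ : ℝ := 1 / ((m : ℝ) + 1) with hδ
  have hδp : 0 < δ := by rw [hδ]; positivity
  have hδρ : δ < ρ / 2 := by
    refine lt_of_le_of_lt ?_ hN
    rw [hδ]
    have : (N : ℝ) ≤ m := by exact_mod_cast hm
    exact one_div_le_one_div_of_le (by positivity) (by linarith)
  have hδ1 : δ ≤ 1 := by
    rw [hδ, div_le_one (by positivity)]
    have : (0:ℝ) ≤ m := Nat.cast_nonneg m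
    linarith
  have hi : IntegrableOn (fun r => g (δ * r)) (Icc 1 (1 + 1)) := by
    have h5 : ContinuousOn (fun r : ℝ => g (δ * r)) (Icc 1 (1 + 1)) := by
      refine hg.comp (continuous_const.mul continuous_id).continuousOn fun r hr => ?_
      have h6 : 0 ≤ r := by linarith [hr.1]
      refine ⟨by positivity, ?_⟩
      have h7 : r ≤ 2 := by linarith [hr.2]
      show δ * r ≤ 2
      nlinarith
    exact h5.integrableOn_Icc
  have hb : ∀ r ∈ Icc (1:ℝ) (1 + 1), |g (δ * r) - g 0| < ε / 2 := by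
    intro r hr
    have h6 : 0 ≤ r := by linarith [hr.1]
    have h7 : r ≤ 2 := by linarith [hr.2]
    have h8 : 0 ≤ δ * r := by positivity
    have h9 : δ * r ≤ 2 * δ := by nlinarith
    have h10 := h4 (x := δ * r) ⟨h8, by nlinarith⟩ (by
      rw [Real.dist_eq, sub_zero, abs_of_nonneg h8]
      linarith)
    rwa [Real.dist_eq] at h10
  have u1 : H707.N.av (fun r => g (δ * r)) 1 ≤ g 0 + ε / 2 :=
    av_le zero_le_one hi fun r hr => by have := (abs_lt.mp (hb r hr)).2; linarith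
  have u2 : g 0 - ε / 2 ≤ H707.N.av (fun r => g (δ * r)) 1 :=
    le_av zero_le_one hi fun r hr => by have := (abs_lt.mp (hb r hr)).1; linarith
  rw [Real.dist_eq, abs_lt]
  constructor <;> linarith

/-- The divergence theorem outside several bodies, for fields which vanish far out. -/
theorem stokes_bodies_eq [Fact (3 ≤ n)]
    (hsep : ∀ j k, j ≠ k → ∀ y, y ∈ OO (C j) ∨ y ∈ OO (C k)) {R0 : ℝ}
    (hcov : ∀ k (y : E n), R0 < ‖y‖ → ∃ x s, ‖x‖ = 1 ∧ (C k).U x ≤ s ∧ Y (C k).H x s = y)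
    {Z : Fin n → E n → ℝ} (hZ : ∀ i, ContDiff ℝ 1 (Z i)) {R2 : ℝ}
    (hc : ∀ i y, R2 < ‖y‖ → Z i y = 0) :
    ∫ y in {y | ∀ k, y ∈ OO (C k)}, ∑ i, pd i (Z i) y = - ∑ k, SI (bflux (C k) Z 0) := by
  obtain ⟨R1, hst⟩ := psi_id hcov
  obtain ⟨η, hη, hw⟩ := exists_width hsep hcov
  set R := max (max R1 (R2 + 1)) 1 with hR
  have hR1 : R1 ≤ R := (le_max_left _ _).trans (le_max_left _ _)
  have hR2 : R2 + 1 ≤ R := (le_max_right _ _).trans (le_max_left _ _)
  have hR0 : 0 < R := by linarith [le_max_right (max R1 (R2 + 1)) 1]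
  have hdz : ∀ y : E n, R < ‖y‖ → ∑ i, pd i (Z i) y = 0 := by
    intro y hy
    refine Finset.sum_eq_zero fun i _ => ?_
    have h1 : Z i =ᶠ[𝓝 y] fun _ => 0 := by
      have h2 : ∀ᶠ z : E n in 𝓝 y, R < ‖z‖ := continuous_norm.continuousAt.eventually_const_lt hy
      filter_upwards [h2] with z hz
      exact hc i z (by linarith)
    rw [pd_near h1]
    unfold Vale.Agent.P366.pd
    simp
  have havz : H707.N.av (flux Z) R = 0 := by
    refine le_antisymm (av_le hR0.le ?_ fun r hr => ?_) (le_av hR0.le ?_ fun r hr => ?_)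
    · exact Vale.Agent.P366.H707.N.flux_integrable (le_refl (0:ℝ))
        (fun i y hy => (hZ i).contDiffAt) (by linarith [le_max_right (max R1 (R2 + 1)) 1])
    · have h1 : flux Z r = 0 := by
        have h2 := H474.W.flux_congr (W := Z) (W' := fun _ _ => 0) (r := r)
          (by linarith [hr.1]) (fun i y hy => hc i y (by rw [hy]; linarith [hr.1]))
        rw [h2, H474.W.flux_SI]
        simp [SI]
      exact h1.le
    · exact Vale.Agent.P366.H707.N.flux_integrable (le_refl (0:ℝ))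
        (fun i y hy => (hZ i).contDiffAt) (by linarith [le_max_right (max R1 (R2 + 1)) 1])
    · have h1 : flux Z r = 0 := by
        have h2 := H474.W.flux_congr (W := Z) (W' := fun _ _ => 0) (r := r)
          (by linarith [hr.1]) (fun i y hy => hc i y (by rw [hy]; linarith [hr.1]))
        rw [h2, H474.W.flux_SI]
        simp [SI]
      exact h1.ge
  have hO : IsOpen {y : E n | ∀ k, y ∈ OO (C k)} := by
    have : {y : E n | ∀ k, y ∈ OO (C k)} = ⋂ k, OO (C k) := by ext; simp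
    rw [this]
    exact isOpen_iInter_of_finite fun k => isOpen_OO (C k)
  obtain ⟨g1, -⟩ := chi_id hR0 hZ
  -- the left sides converge
  obtain ⟨N, hN⟩ := exists_nat_one_div_lt (show 0 < η / 2 by positivity)
  have hδη : ∀ m : ℕ, N ≤ m → 2 * (1 / ((m : ℝ) + 1)) ≤ η := by
    intro m hm
    have : (N : ℝ) ≤ m := by exact_mod_cast hm
    have h1 : 1 / ((m : ℝ) + 1) ≤ 1 / ((N : ℝ) + 1) :=
      one_div_le_one_div_of_le (by positivity) (by linarith)
    linarith
  have hδ1 : ∀ m : ℕ, 1 / ((m : ℝ) + 1) ≤ 1 := fun m => by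
    rw [div_le_one (by positivity)]
    have : (0:ℝ) ≤ m := Nat.cast_nonneg m
    linarith
  have hid := fun m : ℕ => hst Z hZ (1 / ((m : ℝ) + 1)) (by positivity) (hδ1 m) R hR1
  have hL : Tendsto (fun m : ℕ => ∫ y, psi C (1 / ((m : ℝ) + 1)) R y * ∑ i, pd i (Z i) y) atTop
      (𝓝 (∫ y, {y : E n | ∀ k, y ∈ OO (C k)}.indicator (fun y => ∑ i, pd i (Z i) y) y)) := by
    refine tendsto_integral_filter_of_dominated_convergence
      (fun y => |chi R y * ∑ i, pd i (Z i) y|) ?_ ?_ g1.abs ?_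
    · exact Eventually.of_forall fun m => (hid m).1.aestronglyMeasurable
    · filter_upwards [eventually_ge_atTop N] with m hm
      refine Eventually.of_forall fun y => ?_
      obtain ⟨p1, p2, _, _⟩ := psi_prop hw (by positivity) (hδη m hm) (hid m).2.1 y
      rw [Real.norm_eq_abs, abs_mul, abs_mul, abs_of_nonneg p1, abs_of_nonneg (chi_nonneg R y)]
      exact mul_le_mul_of_nonneg_right p2 (abs_nonneg _)
    · refine Eventually.of_forall fun y => ?_
      by_cases hy : ∀ k, y ∈ OO (C k)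
      · rw [indicator_of_mem (show y ∈ {y : E n | ∀ k, y ∈ OO (C k)} from hy)]
        refine Tendsto.congr' ?_ tendsto_const_nhds
        have h1 : ∀ k, ∀ᶠ m : ℕ in atTop, y ∈ GG (C k) (2 * (1 / ((m : ℝ) + 1))) := by
          intro k
          have h2 := rr_pos (hy k)
          have h3 : Tendsto (fun m : ℕ => 2 * (1 / ((m : ℝ) + 1))) atTop (𝓝 (2 * 0)) :=
            tendsto_one_div_add_atTop_nhds_zero_nat.const_mul 2
          rw [mul_zero] at h3
          filter_upwards [h3.eventually_lt_const h2] with m hm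
          exact ⟨hy k, hm⟩
        have h4 : ∀ᶠ m : ℕ in atTop, ∀ k, y ∈ GG (C k) (2 * (1 / ((m : ℝ) + 1))) :=
          eventually_all.mpr h1
        filter_upwards [h4, eventually_ge_atTop N] with m hm hmN
        obtain ⟨_, _, _, p4⟩ := psi_prop hw (by positivity) (hδη m hmN) (hid m).2.1 y
        rw [p4 hm]
        by_cases hyR : ‖y‖ ≤ R
        · rw [chi_one hyR, one_mul]
        · rw [hdz y (not_le.mp hyR), mul_zero]
      · rw [indicator_of_notMem (show y ∉ {y : E n | ∀ k, y ∈ OO (C k)} from hy)]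
        push Not at hy
        refine Tendsto.congr' ?_ tendsto_const_nhds
        filter_upwards [eventually_ge_atTop N] with m hm
        obtain ⟨_, _, p3, _⟩ := psi_prop hw (by positivity) (hδη m hm) (hid m).2.1 y
        rw [p3 hy, zero_mul]
  have hRt : Tendsto (fun m : ℕ => ∫ y, psi C (1 / ((m : ℝ) + 1)) R y * ∑ i, pd i (Z i) y) atTop
      (𝓝 (- ∑ k, SI (bflux (C k) Z 0))) := by
    have h1 := (av_lim (sum_cont (C := C) (R0 := R0) hZ)).neg
    refine h1.congr fun m => ?_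
    rw [(hid m).2.2, havz, zero_sub, ← av_split hZ (by positivity) (hδ1 m)]
  have h := tendsto_nhds_unique hL hRt
  rw [integral_indicator hO.measurableSet] at h
  exact h

end Vale.Agent.P366.H375.CH
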