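import Vale.Agent.P366.H375.CH.Sup
import Vale.Agent.P366.H745.CH.Bod

/-! The outside of strictly convex bodies in terms of their support functions. -/

open MeasureTheory Metric Filter Topology Set
open scoped ContDiff ENNReal

noncomputable section
namespace Vale.Agent.P366.CH

open Vale.Agent.P366 (pd E flux fderiv_eq_sum_pd)
open Vale.Agent.P366.H353.N
open Vale.Agent.P366.Kerr (NullCone Psi)
open Vale.Agent.P366.KSN (Y dts sg Ms OO mem_OO stmt_pd stmt_pd2)
open Vale.Agent.P366.Convex (IsSupport ray)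

variable {n : ℕ} {h : E n → ℝ} {x y z : E n} {s : ℝ}

lemma Y_sup (hh : IsSupport h) (hx : ‖x‖ = 1) (s : ℝ) (i : Fin n) :
    (Y (supH h) x s) i = pd i h x + (s - 1) * x i := by
  show pd i (supH h) x + s * x i = _
  rw [supH_pd hh (ne_zero_of_one hx), hx]
  ring

lemma dot_Y (hh : IsSupport h) (hx : ‖x‖ = 1) (s : ℝ) :
    ∑ i, x i * (Y (supH h) x s) i = h x + (s - 1) := by
  simp only [Y_sup hh hx]
  have h1 : ∑ i, x i * (pd i h x + (s - 1) * x i) = ∑ i, x i * pd i h x +
      (s - 1) * ∑ i, x i * x i := by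
    rw [Finset.mul_sum, ← Finset.sum_add_distrib]
    exact Finset.sum_congr rfl fun i _ => by ring
  rw [h1, sup_euler hh (ne_zero_of_one hx), sum_mul_self hx, mul_one]

lemma sm_dot (y : E n) : Sm fun z : E n => ∑ i, z i * y i :=
  Sm.sum _ fun i => (Sm.coord i).mul (Sm.const _)

lemma pd_dot (y : E n) (hz : z ≠ 0) (k : Fin n) : pd k (fun z : E n => ∑ i, z i * y i) z = y k := by
  rw [pd_sum' Finset.univ (fun i => (Sm.coord i).mul (Sm.const (y i))) hz]
  have e : ∀ i, pd k (fun z : E n => z i * y i) z = kd k i * y i := by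
    intro i
    rw [pd_mul' (Sm.coord i) (Sm.const (y i)) hz, pd_coord', Vale.Agent.P366.pd_const]
    ring
  simp only [e]
  rw [sum_kd (fun i => y i) k]

/-- every point is on the normal line at the unit vector where `⟨x, y⟩ - h x` is maximal -/
lemma exists_near [Fact (3 ≤ n)] (hh : IsSupport h) (y : E n) : ∃ x : E n, ‖x‖ = 1 ∧
    (∀ z : E n, ‖z‖ = 1 → ∑ i, z i * y i - h z ≤ ∑ i, x i * y i - h x) ∧
    Y (supH h) x (1 + (∑ i, x i * y i - h x)) = y := by
  have hs' := sup_sm hh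
  have hc : ContinuousOn (fun z : E n => ∑ i, z i * y i - h z) (sphere (0 : E n) 1) :=
    ((sm_dot y).sub hs').contOn
  obtain ⟨x, hx, hmax⟩ := (isCompact_sphere (0 : E n) 1).exists_isMaxOn
    (NormedSpace.sphere_nonempty.2 zero_le_one) hc
  have hx1 : ‖x‖ = 1 := by simpa using hx
  have hx0 := ne_zero_of_one hx1
  have hm : ∀ z : E n, ‖z‖ = 1 → ∑ i, z i * y i - h z ≤ ∑ i, x i * y i - h x := fun z hz =>
    hmax (by simpa using hz)
  refine ⟨x, hx1, hm, ?_⟩
  set m := ∑ i, x i * y i - h x with hmd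
  set g : E n → ℝ := fun z => (∑ i, z i * y i - h z) - m * ‖z‖ with hg
  have hgs : Sm g := ((sm_dot y).sub hs').sub ((Sm.const m).mul Sm.norm)
  have hg0 : g x = 0 := by rw [hg]; simp only; rw [hx1, mul_one, ← hmd, sub_self]
  have hloc : IsLocalMax g x := by
    filter_upwards [nhds_ne hx0] with z hz
    rw [hg0]
    have hn : 0 < ‖z‖ := norm_pos_iff.2 hz
    have hu : ‖‖z‖⁻¹ • z‖ = 1 := by
      rw [norm_smul, norm_inv, norm_norm, inv_mul_cancel₀ hn.ne']
    have h1 := hm _ hu
    have h2 : h (‖z‖⁻¹ • z) = ‖z‖⁻¹ * h z := hh.hom z hz _ (inv_pos.2 hn)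
    have h3 : ∑ i, (‖z‖⁻¹ • z) i * y i = ‖z‖⁻¹ * ∑ i, z i * y i := by
      rw [Finset.mul_sum]
      exact Finset.sum_congr rfl fun i _ => by rw [PiLp.smul_apply, smul_eq_mul, mul_assoc]
    rw [h2, h3, ← mul_sub, inv_mul_le_iff₀ hn] at h1
    show (∑ i, z i * y i - h z) - m * ‖z‖ ≤ 0
    linarith
  have hd : ∀ i, pd i g x = 0 := fun i => by
    unfold Vale.Agent.P366.pd
    rw [hloc.fderiv_eq_zero]
    rfl
  have hd2 : ∀ i, pd i g x = y i - pd i h x - m * x i := by
    intro i
    rw [hg, pd_sub' ((sm_dot y).sub hs') ((Sm.const m).mul Sm.norm) hx0,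
      pd_sub' (sm_dot y) hs' hx0, pd_dot y hx0, pd_mul' (Sm.const m) Sm.norm hx0,
      Vale.Agent.P366.pd_const, pd_norm' hx0, hx1]
    ring
  ext i
  rw [Y_sup hh hx1]
  have h1 := hd i
  rw [hd2 i] at h1
  linarith

/-- the closed outside of the body -/
lemma le_iff [Fact (3 ≤ n)] (hh : IsSupport h) (y : E n) :
    (∃ x s, ‖x‖ = 1 ∧ 1 ≤ s ∧ Y (supH h) x s = y) ↔ ∃ x : E n, ‖x‖ = 1 ∧ h x ≤ ∑ i, x i * y i := by
  constructor
  · rintro ⟨x, s, hx, hs1, rfl⟩
    refine ⟨x, hx, ?_⟩
    rw [dot_Y hh hx]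
    linarith
  · rintro ⟨x, hx, hle⟩
    obtain ⟨z, hz, hm, hY⟩ := exists_near hh y
    exact ⟨z, _, hz, by linarith [hm x hx], hY⟩

/-- the open outside of the body -/
lemma out_iff [Fact (3 ≤ n)] (hh : IsSupport h) (y : E n) :
    y ∈ OO (supC hh) ↔ ∃ x : E n, ‖x‖ = 1 ∧ h x < ∑ i, x i * y i := by
  rw [mem_OO]
  constructor
  · rintro ⟨x, s, hx, hs1, rfl⟩
    refine ⟨x, hx, ?_⟩
    have hs1' : 1 < s := hs1
    show h x < ∑ i, x i * (Y (supH h) x s) i
    rw [dot_Y hh hx]
    linarith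
  · rintro ⟨x, hx, hlt⟩
    obtain ⟨z, hz, hm, hY⟩ := exists_near hh y
    refine ⟨z, _, hz, ?_, hY⟩
    show (1 : ℝ) < _
    linarith [hm x hx]

lemma ray_sup (hh : IsSupport h) (hx : ‖x‖ = 1) (s : ℝ) : Y (supH h) x (1 + s) = ray h x s := by
  ext i
  rw [Y_sup hh hx]
  show _ = Stmt.pd i h x + s * x i
  rw [sup_pd hh (ne_zero_of_one hx)]
  ring

lemma ray_out_le [Fact (3 ≤ n)] (hh : IsSupport h) (y : E n) :
    (∃ x : E n, ‖x‖ = 1 ∧ h x ≤ ∑ i, x i * y i) ↔ ∃ x s, ‖x‖ = 1 ∧ 0 ≤ s ∧ ray h x s = y := by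
  rw [← le_iff hh y]
  constructor
  · rintro ⟨x, s, hx, hs1, rfl⟩
    exact ⟨x, s - 1, hx, by linarith, by rw [← ray_sup hh hx]; congr 1; ring⟩
  · rintro ⟨x, s, hx, hs0, rfl⟩
    exact ⟨x, 1 + s, hx, by linarith, ray_sup hh hx s⟩

lemma ray_out_lt [Fact (3 ≤ n)] (hh : IsSupport h) (y : E n) :
    (∃ x : E n, ‖x‖ = 1 ∧ h x < ∑ i, x i * y i) ↔ ∃ x s, ‖x‖ = 1 ∧ 0 < s ∧ ray h x s = y := by
  constructor
  · rintro ⟨x, hx, hlt⟩
    obtain ⟨z, hz, hm, hY⟩ := exists_near hh y
    exact ⟨z, ∑ i, z i * y i - h z, hz, by linarith [hm x hx], by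
      rw [← ray_sup hh hz]; exact hY⟩
  · rintro ⟨x, s, hx, hs0, rfl⟩
    refine ⟨x, hx, ?_⟩
    rw [← ray_sup hh hx, dot_Y hh hx]
    linarith

/-- The region outside disjoint strictly convex bodies: `{F < 0}` is the union of the interiors of
the bodies. -/
theorem bodies_of [Fact (3 ≤ n)] {ι : Type} {h : ι → E n → ℝ} (hh : ∀ k, IsSupport (h k))
    {F : E n → ℝ} (hF : Continuous F)
    (hsep : ∀ j k, j ≠ k → ∀ y : E n, ∃ x : E n, ‖x‖ = 1 ∧
      (h j x < ∑ i, x i * y i ∨ h k x < ∑ i, x i * y i))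
    (hS : ∀ y, F y < 0 ↔ ∃ k, ∀ x : E n, ‖x‖ = 1 → ∑ i, x i * y i < h k x) :
    Bodies F fun k => supC (hh k) where
  rad := fun k => ⟨1, fun _ _ => rfl⟩
  dom := fun y => by
    have h1 : 0 ≤ F y ↔ ∀ k, ∃ x : E n, ‖x‖ = 1 ∧ h k x ≤ ∑ i, x i * y i := by
      rw [← not_lt, hS]
      push Not
      rfl
    rw [h1]
    exact forall_congr' fun k => (le_iff (hh k) y).symm
  sep := fun j k hjk y => by
    obtain ⟨x, hx, h1 | h1⟩ := hsep j k hjk y
    · exact Or.inl ((out_iff (hh j) y).2 ⟨x, hx, h1⟩)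
    · exact Or.inr ((out_iff (hh k) y).2 ⟨x, hx, h1⟩)
  bdr := fun k x hx => by
    set y := bp (supC (hh k)) x with hy
    have hyi : ∀ i, y i = pd i (h k) x := fun i => by
      rw [hy]
      show (Y (supH (h k)) x 1) i = _
      rw [Y_sup (hh k) hx]
      ring
    have hle : ∀ z : E n, ‖z‖ = 1 → ∑ i, z i * y i ≤ h k z := by
      intro z hz
      simp only [hyi]
      by_cases hzx : z = x
      · rw [hzx, sup_euler (hh k) (ne_zero_of_one hx)]
      · exact (sup_lt_unit (hh k) hx hz hzx).le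
    apply le_antisymm
    · -- limit of interior points
      set p : E n := WithLp.toLp 2 fun i => (pd i (h k) x + pd i (h k) (-x)) / 2 with hp
      have hmx : ‖-x‖ = 1 := by rw [norm_neg, hx]
      have hne : x ≠ -x := by
        intro e
        have h2 : (2 : ℝ) • x = 0 := by
          rw [two_smul]
          nth_rewrite 2 [e]
          exact add_neg_cancel x
        exact ne_zero_of_one hx ((smul_eq_zero.1 h2).resolve_left two_ne_zero)
      have hpl : ∀ z : E n, ‖z‖ = 1 → ∑ i, z i * p i < h k z := by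
        intro z hz
        have e : ∑ i, z i * p i =
            (∑ i, z i * pd i (h k) x + ∑ i, z i * pd i (h k) (-x)) / 2 := by
          rw [← Finset.sum_add_distrib, Finset.sum_div]
          refine Finset.sum_congr rfl fun i _ => ?_
          show z i * ((pd i (h k) x + pd i (h k) (-x)) / 2) = _
          ring
        rw [e]
        by_cases hzx : z = x
        · have h1 : ∑ i, z i * pd i (h k) x = h k z := by
            rw [hzx, sup_euler (hh k) (ne_zero_of_one hx)]
          have h2 := sup_lt_unit (hh k) hmx hz (by rw [hzx]; exact hne)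
          linarith
        · have h1 := sup_lt_unit (hh k) hx hz hzx
          by_cases hzx' : z = -x
          · have h2 : ∑ i, z i * pd i (h k) (-x) = h k z := by
              rw [hzx', sup_euler (hh k) (ne_zero_of_one hmx)]
            linarith
          · have h2 := sup_lt_unit (hh k) hmx hz hzx'
            linarith
      have hin : ∀ t ∈ Ioo (0 : ℝ) 1, F (y + t • (p - y)) < 0 := by
        intro t ht
        rw [hS]
        refine ⟨k, fun z hz => ?_⟩
        have e : ∑ i, z i * (y + t • (p - y)) i =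
            (1 - t) * ∑ i, z i * y i + t * ∑ i, z i * p i := by
          rw [Finset.mul_sum, Finset.mul_sum, ← Finset.sum_add_distrib]
          refine Finset.sum_congr rfl fun i _ => ?_
          simp only [PiLp.add_apply, PiLp.smul_apply, PiLp.sub_apply, smul_eq_mul]
          ring
        rw [e]
        have h1 := mul_le_mul_of_nonneg_left (hle z hz) (sub_nonneg.2 ht.2.le)
        have h2 := mul_lt_mul_of_pos_left (hpl z hz) ht.1
        linarith
      have hlim : Tendsto (fun t : ℝ => F (y + t • (p - y))) (𝓝[>] 0) (𝓝 (F y)) := by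
        have h1 : Continuous fun t : ℝ => F (y + t • (p - y)) := by fun_prop
        have h2 := h1.tendsto 0
        simp only [zero_smul, add_zero] at h2
        exact h2.mono_left nhdsWithin_le_nhds
      refine le_of_tendsto hlim ?_
      filter_upwards [Ioo_mem_nhdsGT (zero_lt_one' ℝ)] with t ht using (hin t ht).le
    · by_contra hlt
      push Not at hlt
      obtain ⟨j, hj⟩ := (hS y).1 hlt
      by_cases hjk : j = k
      · subst hjk
        have h1 := hj x hx
        simp only [hyi] at h1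
        rw [sup_euler (hh j) (ne_zero_of_one hx)] at h1
        exact lt_irrefl _ h1
      · obtain ⟨z, hz, h1 | h1⟩ := hsep j k hjk y
        · exact absurd (hj z hz) (not_lt.2 h1.le)
        · exact absurd h1 (not_lt.2 (hle z hz))

/-- the boundary point with the normal `x` -/
lemma bp_sup [Fact (3 ≤ n)] (hh : IsSupport h) (hx : ‖x‖ = 1) : bp (supC hh) x = ray h x 0 := by
  rw [← ray_sup hh hx, add_zero]
  rfl

/-- the area element in terms of the support function -/
lemma dts_sup [Fact (3 ≤ n)] (hh : IsSupport h) (hx : ‖x‖ = 1) :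
    dts (supC hh).H ((supC hh).U x) x =
      (Matrix.of fun i j => Stmt.pd i (Stmt.pd j h) x + x i * x j).det := by
  show (Ms (supH h) 1 x).det = _
  congr 1
  ext i j
  show hs (supH h) i j x + 1 * pr x i j + x i * x j = Stmt.pd i (Stmt.pd j h) x + x i * x j
  rw [supH_hs hh hx, stmt_pd2 (sup_sm hh x (ne_zero_of_one hx))]
  ring

end Vale.Agent.P366.CH
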