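import Vale.Agent.P366.H375.CH.Sum

/-! The divergence theorem outside several surfaces: cutoffs around the surfaces. -/

open MeasureTheory Metric Filter Topology Set
open scoped ContDiff ENNReal

noncomputable section
namespace Vale.Agent.P366.H375.CH

open Vale.Agent.P366 (pd E flux)
open Vale.Agent.P366.H353.N
open Vale.Agent.P366.Kerr (NullCone)
open Vale.Agent.P366.KSN (Y bflux OO mem_OO cut Rz rr rr_Rz rr_cd rr_Y isOpen_OO isClosed_Rz
  Rz_bound Rz_Y Y_Rz Y_apply norm_smul_unit Y_cont)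

variable {n : ℕ} {C C' : NullCone n} {x y : E n} {s c η : ℝ}

/-- The points outside the surface at a distance more than `c` from it along the rays. -/
def GG (C : NullCone n) (c : ℝ) : Set (E n) := {y | y ∈ OO C ∧ c < rr C y}

lemma GG_mono (h : c ≤ η) : GG C η ⊆ GG C c := fun _ hy => ⟨hy.1, h.trans_lt hy.2⟩

lemma rr_contAt (hy : y ∈ OO C) : ContinuousAt (rr C) y := by
  obtain ⟨z, hz, rfl⟩ := hy
  exact (rr_cd C hz).continuousAt

lemma rr_pos (hy : y ∈ OO C) : 0 < rr C y := by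
  obtain ⟨z, hz, rfl⟩ := hy
  rw [rr_Rz hz]
  exact norm_pos_iff.2 hz

lemma isOpen_GG (C : NullCone n) (c : ℝ) : IsOpen (GG C c) := by
  rw [isOpen_iff_mem_nhds]
  intro y hy
  have h1 : ∀ᶠ y in 𝓝 y, y ∈ OO C := (isOpen_OO C).mem_nhds hy.1
  have h2 : ∀ᶠ y in 𝓝 y, c < rr C y := (rr_contAt hy.1).eventually_const_lt hy.2
  exact h1.and h2

lemma near_OO (y : E n) (hη : 0 < η) (h : y ∈ OO C → rr C y < η) :
    ∀ᶠ z in 𝓝 y, z ∈ OO C → rr C z < η := by
  have ho : IsOpen (Rz C '' {z | η ≤ ‖z‖})ᶜ := (isClosed_Rz C hη).isOpen_compl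
  have hy : y ∈ (Rz C '' {z | η ≤ ‖z‖})ᶜ := by
    rintro ⟨z, hz, rfl⟩
    have hz' : η ≤ ‖z‖ := hz
    have hz0 : z ≠ 0 := fun h => by rw [h, norm_zero] at hz'; linarith
    have h1 := h ⟨z, hz0, rfl⟩
    rw [rr_Rz hz0] at h1
    linarith
  filter_upwards [ho.mem_nhds hy] with w hw hwO
  obtain ⟨z, hz, rfl⟩ := hwO
  rw [rr_Rz hz]
  by_contra hc
  exact hw ⟨z, not_lt.mp hc, rfl⟩

/-- The points far out are far from the surface. -/
lemma far_GG (C : NullCone n) {R0 : ℝ}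
    (hcov : ∀ y : E n, R0 < ‖y‖ → ∃ x s, ‖x‖ = 1 ∧ C.U x ≤ s ∧ Y C.H x s = y)
    (hc : 0 < c) : ∃ B, ∀ y : E n, B < ‖y‖ → y ∈ GG C c := by
  obtain ⟨M, hM0, hM⟩ := Rz_bound C
  refine ⟨max R0 (M + c), fun y hy => ?_⟩
  obtain ⟨x, s, hx, hs, rfl⟩ := hcov y ((le_max_left _ _).trans_lt hy)
  have h1 : ‖Y C.H x s - (s - C.U x) • x‖ ≤ M := by
    have hx0 := ne_zero_of_one hx
    have h2 := hM x hx0
    have e1 : Rz C x = Y C.H x (C.U x + 1) := by
      have := Rz_Y (C := C) hx one_pos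
      rwa [one_smul] at this
    have e : Y C.H x s - (s - C.U x) • x = Rz C x - x := by
      rw [e1]
      ext i
      simp only [PiLp.sub_apply, Y_apply, PiLp.smul_apply, smul_eq_mul]
      ring
    rw [e]; exact h2
  have h3 := norm_sub_norm_le (Y C.H x s) ((s - C.U x) • x)
  rw [norm_smul_unit hx (by linarith)] at h3
  have h4 : M + c < ‖Y C.H x s‖ := (le_max_right _ _).trans_lt hy
  have hs' : C.U x < s := by linarith
  refine ⟨mem_OO.mpr ⟨x, s, hx, hs', rfl⟩, ?_⟩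
  rw [rr_Y hx hs']
  linarith

/-- Two disjoint bodies have disjoint neighbourhoods. -/
lemma sep_GG (C C' : NullCone n) {R0 : ℝ}
    (hcov : ∀ y : E n, R0 < ‖y‖ → ∃ x s, ‖x‖ = 1 ∧ C.U x ≤ s ∧ Y C.H x s = y)
    (hsep : ∀ y, y ∈ OO C ∨ y ∈ OO C') :
    ∃ η, 0 < η ∧ ∀ y, y ∈ GG C η ∨ y ∈ GG C' η := by
  by_contra hcon
  push Not at hcon
  have h1 : ∀ m : ℕ, ∃ y, y ∉ GG C (1 / ((m : ℝ) + 1)) ∧ y ∉ GG C' (1 / ((m : ℝ) + 1)) :=
    fun m => hcon _ (by positivity)
  choose u hu hu' using h1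
  obtain ⟨B, hB⟩ := far_GG C hcov one_pos
  have hm1 : ∀ m : ℕ, 1 / ((m : ℝ) + 1) ≤ 1 := fun m => by
    rw [div_le_one (by positivity)]
    have : (0:ℝ) ≤ m := Nat.cast_nonneg m
    linarith
  have hub : ∀ m, u m ∈ closedBall (0 : E n) B := by
    intro m
    simp only [mem_closedBall, dist_zero_right]
    by_contra hc
    push Not at hc
    exact hu m (GG_mono (hm1 m) (hB _ hc))
  obtain ⟨y, hy, φ, hφ, hlim⟩ := (isCompact_closedBall (0 : E n) B).tendsto_subseq hub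
  have hlim : Tendsto (fun m : ℕ => u (φ m)) atTop (𝓝 y) := hlim
  have key : ∀ K : NullCone n, (∀ m : ℕ, u m ∉ GG K (1 / ((m : ℝ) + 1))) → y ∉ OO K := by
    intro K hK hyO
    have hr := rr_pos hyO
    have hmem : y ∈ GG K (rr K y / 2) := ⟨hyO, by linarith⟩
    have h2 : ∀ᶠ m : ℕ in atTop, u (φ m) ∈ GG K (rr K y / 2) :=
      hlim.eventually ((isOpen_GG K _).mem_nhds hmem)
    have h3 : Tendsto (fun m : ℕ => 1 / ((φ m : ℝ) + 1)) atTop (𝓝 0) :=
      tendsto_one_div_add_atTop_nhds_zero_nat.comp hφ.tendsto_atTop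
    have h4 : ∀ᶠ m : ℕ in atTop, 1 / ((φ m : ℝ) + 1) < rr K y / 2 :=
      h3.eventually_lt_const (by linarith)
    obtain ⟨m, h5, h6⟩ := (h2.and h4).exists
    exact hK (φ m) (GG_mono h6.le h5)
  rcases hsep y with h | h
  · exact key C hu h
  · exact key C' hu' h

/-- The points of the surface are not at a positive distance from it. -/
lemma bd_GG (hx : ‖x‖ = 1) (hc : 0 < c) : Y C.H x (C.U x) ∉ GG C c := by
  intro h
  have h1 : ∀ᶠ t in 𝓝 (C.U x), Y C.H x t ∈ GG C c :=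
    (Y_cont C.H x).continuousAt.eventually ((isOpen_GG C c).mem_nhds h)
  obtain ⟨r, hr, hb⟩ := Metric.eventually_nhds_iff_ball.mp h1
  set t := C.U x + min (r / 2) (c / 2) with ht
  have hm : 0 < min (r / 2) (c / 2) := by positivity
  have hmr : min (r / 2) (c / 2) ≤ r / 2 := min_le_left _ _
  have hmc : min (r / 2) (c / 2) ≤ c / 2 := min_le_right _ _
  have h2 := hb t (by
    rw [mem_ball, Real.dist_eq, abs_lt]
    constructor <;> linarith)
  have h3 := h2.2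
  rw [rr_Y hx (by linarith)] at h3
  linarith

open Classical in
/-- The cutoff: zero near the body, one far from it. -/
def phi (C : NullCone n) (η : ℝ) (y : E n) : ℝ := if y ∈ OO C then T1.T (rr C y / η - 1) else 0

lemma phi_zero (y : E n) (hη : 0 < η) (h : y ∈ OO C → rr C y < η) :
    phi C η =ᶠ[𝓝 y] fun _ => 0 := by
  filter_upwards [near_OO y hη h] with z hz
  unfold phi
  split_ifs with h1
  · have h2 : rr C z / η ≤ 1 := by rw [div_le_one hη]; exact (hz h1).le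
    exact Real.smoothTransition.zero_of_nonpos (by linarith)
  · rfl

lemma phi_one (hη : 0 < η) (h : y ∈ GG C (2 * η)) : phi C η =ᶠ[𝓝 y] fun _ => 1 := by
  filter_upwards [(isOpen_GG C _).mem_nhds h] with z hz
  unfold phi
  rw [if_pos hz.1]
  have h2 : 2 ≤ rr C z / η := by rw [le_div_iff₀ hη]; exact hz.2.le
  exact Real.smoothTransition.one_of_one_le (by linarith)

lemma phi_cd (C : NullCone n) (hη : 0 < η) (y : E n) : ContDiffAt ℝ ∞ (phi C η) y := by
  by_cases hy : y ∈ OO C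
  · obtain ⟨z, hz, rfl⟩ := hy
    have h1 : ContDiffAt ℝ ∞ (fun y => T1.T (rr C y / η - 1)) (Rz C z) :=
      T1.T_smooth.contDiffAt.comp (Rz C z) (((rr_cd C hz).div_const η).sub contDiffAt_const)
    refine h1.congr_of_eventuallyEq ?_
    filter_upwards [(isOpen_OO C).mem_nhds ⟨z, hz, rfl⟩] with w hw
    unfold phi
    rw [if_pos hw]
  · exact contDiffAt_const.congr_of_eventuallyEq (phi_zero y hη fun h => absurd h hy)

lemma cut_one {δ R : ℝ} (hδ : 0 < δ) (hy : y ∈ OO C) (h : 2 * δ ≤ rr C y) :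
    cut C δ R y = 1 - T1.T (‖y‖ - R) := by
  unfold cut H707.N.cutO
  rw [if_pos hy]
  have h2 : 2 ≤ rr C y / δ := by rw [le_div_iff₀ hδ]; exact h
  rw [show T1.T (rr C y / δ - 1) = 1 from Real.smoothTransition.one_of_one_le (by linarith)]

lemma cut_zero {δ R : ℝ} (hy : y ∉ OO C) : cut C δ R y = 0 := by
  unfold cut H707.N.cutO
  rw [if_neg hy]

lemma pd_near {f g : E n → ℝ} (h : f =ᶠ[𝓝 y] g) (i : Fin n) : pd i f y = pd i g y := by
  unfold Vale.Agent.P366.pd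
  rw [h.fderiv_eq]

end Vale.Agent.P366.H375.CH
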