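import Vale.Agent.P366.H707.N.Stokes

/-! The divergence theorem outside several surfaces: the sum over the surfaces. -/

open MeasureTheory Metric Filter Topology Set
open scoped ContDiff ENNReal

noncomputable section
namespace Vale.Agent.P366.H375.CH

open Vale.Agent.P366 (pd E flux)
open Vale.Agent.P366.H353.N
open Vale.Agent.P366.Kerr (NullCone)
open Vale.Agent.P366.H707.N (le_av av_tendsto)
open Vale.Agent.P366.KSN (Y bflux OO mem_OO cut stokes_id SI_bflux_cont)

variable {n : ℕ} {ι : Type*} [Fintype ι]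

/-- A bound for the averages near `0` gives the bound at `0`. -/
lemma lim_le {g : ℝ → ℝ} (hg : ContinuousOn g (Icc 0 2)) {e δ0 : ℝ} (hδ0 : 0 < δ0)
    (h1 : ∀ δ, 0 < δ → δ ≤ δ0 → δ ≤ 1 → H707.N.av (fun r => g (δ * r)) 1 ≤ e) : g 0 ≤ e := by
  refine le_of_forall_sub_le fun ε hε => ?_
  have hc0 := hg 0 ⟨le_rfl, by norm_num⟩
  have h3 := Metric.continuousWithinAt_iff.mp hc0 ε hε
  obtain ⟨η, hη, h4⟩ := h3
  set δ := min (min (η / 4) 1) δ0 with hδ
  have hδp : 0 < δ := by rw [hδ]; positivity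
  have hδ1 : δ ≤ 1 := (min_le_left _ _).trans (min_le_right _ _)
  have hδη : δ ≤ η / 4 := (min_le_left _ _).trans (min_le_left _ _)
  refine le_trans ?_ (h1 δ hδp (min_le_right _ _) hδ1)
  refine le_av (φ := fun r => g (δ * r)) zero_le_one ?_ fun r hr => ?_
  · have h5 : ContinuousOn (fun r : ℝ => g (δ * r)) (Icc 1 (1 + 1)) := by
      refine hg.comp (continuous_const.mul continuous_id).continuousOn fun r hr => ?_
      have h6 : 0 ≤ r := by linarith [hr.1]
      refine ⟨by positivity, ?_⟩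
      have h7 : r ≤ 2 := by linarith [hr.2]
      show δ * r ≤ 2
      nlinarith
    exact h5.integrableOn_Icc
  · have h6 : 0 ≤ r := by linarith [hr.1]
    have h7 : r ≤ 2 := by linarith [hr.2]
    have h8 : 0 ≤ δ * r := by positivity
    have h9 : δ * r ≤ 2 * δ := by nlinarith
    have h10 := h4 (x := δ * r) ⟨h8, by linarith⟩ (by
      rw [Real.dist_eq, sub_zero, abs_of_nonneg h8]
      linarith)
    rw [Real.dist_eq] at h10
    have := (abs_lt.mp h10).1
    linarith

lemma av_sum {κ : Type*} (s : Finset κ) {φ : κ → ℝ → ℝ} {c : ℝ}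
    (hφ : ∀ k ∈ s, IntegrableOn (φ k) (Icc c (c + 1))) :
    H707.N.av (fun r => ∑ k ∈ s, φ k r) c = ∑ k ∈ s, H707.N.av (φ k) c := by
  unfold H707.N.av
  rw [← integral_finsetSum s fun k hk => H707.N.av_integrable (hφ k hk)]
  refine integral_congr_ae (Eventually.of_forall fun r => ?_)
  simp only [Finset.mul_sum]

/-- The divergence theorem for a family of surfaces and of fields. -/
theorem stokes_sum [Fact (3 ≤ n)] (C : ι → NullCone n) {R0 : ℝ}
    (hcov : ∀ k, ∀ y : E n, R0 < ‖y‖ → ∃ x s, ‖x‖ = 1 ∧ (C k).U x ≤ s ∧ Y (C k).H x s = y)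
    {W : ι → Fin n → E n → ℝ}
    (hW : ∀ k i x s, ‖x‖ = 1 → (C k).U x ≤ s → ContDiffAt ℝ 1 (W k i) (Y (C k).H x s))
    {η : ℝ} (hη : 0 < η)
    (hpos : ∀ δ, 0 < δ → δ ≤ η → ∀ R, (∀ k y, 0 ≤ cut (C k) δ R y) →
      ∀ y, 0 ≤ ∑ k, cut (C k) δ R y * ∑ i, pd i (W k i) y)
    {e : ι → ℝ} (he : ∀ k, Tendsto (flux (W k)) atTop (𝓝 (e k))) :
    ∑ k, SI (bflux (C k) (W k) 0) ≤ ∑ k, e k := by
  have hst := fun k => stokes_id (C k) (hcov k)
  choose R1 hst using hst
  have hWO : ∀ k i, ∀ y ∈ OO (C k), ContDiffAt ℝ 1 (W k i) y := by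
    intro k i y hy
    obtain ⟨x, s, hx, hs, rfl⟩ := mem_OO.mp hy
    exact hW k i x s hx hs.le
  have hWc : ∀ k, ∀ i x s, ‖x‖ = 1 → (C k).U x ≤ s → ContinuousAt (W k i) (Y (C k).H x s) :=
    fun k i x s hx hs => (hW k i x s hx hs).continuousAt
  have hav : ∀ k, Tendsto (H707.N.av (flux (W k))) atTop (𝓝 (e k)) := by
    intro k
    refine av_tendsto (s0 := max R0 0 + 1) (fun c hc => ?_) (he k)
    refine Vale.Agent.P366.H707.N.flux_integrable (le_max_right R0 0) (fun i y hy => ?_) hc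
    obtain ⟨x, s, hx, hs, rfl⟩ := hcov k y ((le_max_left _ _).trans_lt hy)
    exact hW k i x s hx hs
  have hg : ContinuousOn (fun c => ∑ k, SI (bflux (C k) (W k) c)) (Icc 0 2) :=
    continuousOn_finsetSum _ fun k _ => SI_bflux_cont (C k) (hWc k) (b := 2)
  refine lim_le hg hη fun δ hδ hδη hδ1 => ?_
  have hsplit : H707.N.av (fun r => ∑ k, SI (bflux (C k) (W k) (δ * r))) 1 =
      ∑ k, H707.N.av (fun r => SI (bflux (C k) (W k) (δ * r))) 1 := by
    refine av_sum Finset.univ fun k _ => ?_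
    have h5 : ContinuousOn (fun r : ℝ => SI (bflux (C k) (W k) (δ * r))) (Icc 1 (1 + 1)) := by
      refine (SI_bflux_cont (C k) (hWc k) (b := 2)).comp
        (continuous_const.mul continuous_id).continuousOn fun r hr => ?_
      have h6 : 0 ≤ r := by linarith [hr.1]
      refine ⟨by positivity, ?_⟩
      have h7 : r ≤ 2 := by linarith [hr.2]
      show δ * r ≤ 2
      nlinarith
    exact h5.integrableOn_Icc
  change H707.N.av (fun r => ∑ k, SI (bflux (C k) (W k) (δ * r))) 1 ≤ _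
  rw [hsplit]
  have hlim : Tendsto (fun R => ∑ k, H707.N.av (flux (W k)) R) atTop (𝓝 (∑ k, e k)) :=
    tendsto_finsetSum _ fun k _ => hav k
  refine ge_of_tendsto hlim ?_
  have hev : ∀ᶠ R in atTop, ∀ k, R1 k ≤ R := by
    rw [eventually_all]
    exact fun k => eventually_ge_atTop (R1 k)
  filter_upwards [hev] with R hR
  have h := fun k => hst k (W k) (hWO k) δ hδ hδ1 R (hR k)
  have h2 : 0 ≤ ∫ y, ∑ k, cut (C k) δ R y * ∑ i, pd i (W k i) y :=
    integral_nonneg fun y => hpos δ hδ hδη R (fun k => (h k).2.1) y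
  rw [integral_finsetSum _ fun k _ => (h k).1] at h2
  have h3 : ∑ k, ∫ y, cut (C k) δ R y * ∑ i, pd i (W k i) y =
      ∑ k, H707.N.av (flux (W k)) R -
        ∑ k, H707.N.av (fun r => SI (bflux (C k) (W k) (δ * r))) 1 := by
    rw [← Finset.sum_sub_distrib]
    exact Finset.sum_congr rfl fun k _ => (h k).2.2
  rw [h3] at h2
  linarith

end Vale.Agent.P366.H375.CH
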